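import Vale.Agent.P070ZU.BS
import Vale.Agent.P070ZC.Cm

/-!
# The pre-Hilbert space of bounded sequences
-/

set_option linter.unusedSectionVars false

namespace Vale.Agent.P129B

universe v

variable {N : Type v} [ZM N] {R : Type*} [Field R] [LinearOrder R] [IsStrictOrderedRing R]
  [Coded N R] [RF N R] {K : Type*} [Field K] [Algebra R K] [Nm K R] [KA R K] [Coded N K]
  [KF N R K] {E : Type*} [AddCommGroup E] [Module K E] [Nm E R] [NA R K E] [Coded N E]
  [NS N R K E] {α : Type*} [Coded N α] {L : (NN N → K) → K} {ip : E → E → K}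

theorem SIP.bdd_ip (h : SIP ip nm) {ι : Type*} {x y : ι → E} (hx : ∃ C : R, ∀ n, nm (x n) ≤ C)
    (hy : ∃ C : R, ∀ n, nm (y n) ≤ C) : ∃ C : R, ∀ n, nm (ip (x n) (y n)) ≤ C := by
  obtain ⟨C, hC⟩ := hx
  obtain ⟨D, hD⟩ := hy
  exact ⟨C * D, fun n => (h.cs _ _).trans
    (mul_le_mul (hC n) (hD n) (nm_nonneg _) ((nm_nonneg _).trans (hC n)))⟩

namespace BS

/-- the limit of the inner products -/
noncomputable def pre (hL : KLim N L) (h : SIP ip nm)
    (hd : DefF N fun p : E × E => ip p.1 p.2) : PreH N K (BS N K E) where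
  ip x y := L fun n => ip (x.val n) (y.val n)
  defIp := hL.defF.comp (DefF.lam _ (hd.comp2 (by fun_prop) (by fun_prop)))
  add x y z := by
    simp only [val_add, h.add]
    exact hL.add _ _ (hd.comp2 (by fun_prop) (by fun_prop)) (hd.comp2 (by fun_prop) (by fun_prop))
      (h.bdd_ip x.bdd y.bdd) (h.bdd_ip x.bdd z.bdd)
  smul c x y := by
    simp only [val_smul, h.smul]
    exact hL.mul _ _ (hd.comp2 (by fun_prop) (by fun_prop)) (h.bdd_ip x.bdd y.bdd)
  conj x y := by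
    rw [← hL.map_conj (hd.comp2 (by fun_prop) (by fun_prop)) (h.bdd_ip x.bdd y.bdd)]
    simp only [h.conj]
  pos x := hL.ge (hd.comp2 (by fun_prop) (by fun_prop)) (h.bdd_ip x.bdd x.bdd)
    ⟨0, fun n _ => (sq_nonneg _).trans_eq (h.sq _)⟩

theorem pre_ip (hL : KLim N L) (h : SIP ip nm) (hd : DefF N fun p : E × E => ip p.1 p.2)
    (x y : BS N K E) : (pre hL h hd).ip x y = L fun n => ip (x.val n) (y.val n) := rfl

/-- a bounded definable linear map acts on the bounded sequences -/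
def map (T : E →ₗ[K] E) (hT : DefF N fun x => T x) (b : ∃ C : R, ∀ x, nm (T x) ≤ C * nm x) :
    BS N K E →ₗ[K] BS N K E where
  toFun x := mk (fun n => T (x.val n)) (DefF.toIntl (by fun_prop)) (by
    obtain ⟨C, hC⟩ := b
    obtain ⟨D, hD⟩ := x.bdd
    exact ⟨|C| * D, fun n => (hC _).trans (mul_le_mul (le_abs_self C) (hD n) (nm_nonneg _)
      (abs_nonneg C))⟩)
  map_add' x y := ext fun n => T.map_add _ _
  map_smul' c x := ext fun n => T.map_smul _ _

@[simp] theorem val_map (T : E →ₗ[K] E) (hT : DefF N fun x => T x)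
    (b : ∃ C : R, ∀ x, nm (T x) ≤ C * nm x) (x : BS N K E) (n : NN N) :
    (map T hT b x).val n = T (x.val n) := rfl

theorem s_le (hL : KLim N L) (h : SIP ip nm) (hd : DefF N fun p : E × E => ip p.1 p.2)
    {x y : BS N K E} {C : R} (hC : 0 ≤ C) (b : ∀ n, nm (x.val n) ≤ C * nm (y.val n)) :
    (pre hL h hd).s x ≤ C * (pre hL h hd).s y := by
  have s := (pre hL h hd).sip
  refine le_of_sq_le_sq ?_ (mul_nonneg hC (s.nonneg y))
  rw [mul_pow, s.sq, s.sq, pre_ip, pre_ip]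
  have d1 : DefF N fun n => ip (x.val n) (x.val n) := hd.comp2 (by fun_prop) (by fun_prop)
  have d2 : DefF N fun n => ip (y.val n) (y.val n) := hd.comp2 (by fun_prop) (by fun_prop)
  have b2 : ∃ D : R, ∀ n, nm (algebraMap R K (C ^ 2) * ip (y.val n) (y.val n)) ≤ D := by
    obtain ⟨D, hD⟩ := h.bdd_ip y.bdd y.bdd
    exact ⟨nm (algebraMap R K (C ^ 2)) * D, fun n => by
      rw [KA.nm_mul]; exact mul_le_mul_of_nonneg_left (hD n) (nm_nonneg _)⟩
  obtain ⟨D, hD⟩ := h.bdd_ip x.bdd x.bdd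
  obtain ⟨D', hD'⟩ := b2
  have h1 := hL.le (fun n => ip (x.val n) (x.val n) -
      algebraMap R K (C ^ 2) * ip (y.val n) (y.val n)) (by fun_prop)
    ⟨D + D', fun n => (nm_sub_le _ _).trans (add_le_add (hD n) (hD' n))⟩ 0 ⟨0, fun n _ => by
      rw [map_sub, KA.re_ofR_mul, ← h.sq, ← h.sq, ← mul_pow, sub_nonpos]
      exact pow_le_pow_left₀ (nm_nonneg _) (b n) 2⟩
  rwa [hL.sub d1 (by fun_prop) ⟨D, hD⟩ ⟨D', hD'⟩, hL.mul _ _ d2 (h.bdd_ip y.bdd y.bdd), map_sub,
    KA.re_ofR_mul, sub_nonpos] at h1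

end BS

end Vale.Agent.P129B
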