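import Vale.Agent.P070ZU.Mk
import Vale.Agent.P070ZU.Pre
import Vale.Agent.P070ZC.Inst
import Vale.Agent.P070ZA.Op

/-!
# The representation of `B(H)` on the completion of the bounded sequences
-/

set_option linter.unusedSectionVars false

namespace Vale.Agent.P070Z

open Vale.Agent.P129B

universe v

variable {N : Type v} [ZM N] {α : Type*} [Coded N α] {R K : Type*} [Nm K R] [Field R]
  [LinearOrder R] [IsStrictOrderedRing R] [Field K] [Algebra R K] [KA R K] [StarRing K] [CX R K]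
  [Coded N R] [RF N R] [Coded N K] [KF N R K]
  {H : Type*} [AddCommGroup H] [Module K H] [Nm H R] [Ip H K] [IA R K H] [Coded N H] [HS N R K H]
  {L : Type*} [AddCommGroup L] [Module K L] [Nm L R] [Ip L K] [IA R K L] [Coded N L] [HS N R K L]

/-- `P` acts on classes of bounded sequences. -/
def IsUltraRep (P : Op N K H → Op N K L) : Prop :=
  ∃ mk : (NN N → H) → L, UMk mk ∧ ∀ (T : Op N K H) (x : NN N → H), DefF N x →
    (∃ C : R, ∀ n, nm (x n) ≤ C) → P T (mk x) = mk fun n => T (x n)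

include R K

section Test

variable {P : Op N K H → Op N K L}

theorem op_bdd (T : Op N K H) {x : NN N → H} (b : ∃ C : R, ∀ n, nm (x n) ≤ C) :
    ∃ C : R, ∀ n, nm (T (x n)) ≤ C :=
  b.imp' (fun C => nm T * C) fun _ hC n =>
    (T.le_opNorm _).trans (mul_le_mul_of_nonneg_left (hC n) T.opNorm_nonneg)

/-- The test lemma. -/
theorem IsUltraRep.test (hP : IsUltraRep P) {k1 k2 x : Op N K H} {e1 e2 : NN N → Op N K H}
    (d1 : DefF N e1) (d2 : DefF N e2) (b1 : ∀ n, nm (e1 n) ≤ 1) (b2 : ∀ n, nm (e2 n) ≤ 1)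
    (n1 : ∀ ε : R, 0 < ε → ∃ m, ∀ n, m ≤ n → nm (k1 * e1 n) ≤ ε)
    (n2 : ∀ ε : R, 0 < ε → ∃ m, ∀ n, m ≤ n → nm (k2 * e2 n) ≤ ε)
    (h : ∀ z1 z2 : L, P k1 z1 = 0 → P k2 z2 = 0 → ip z2 (P x z1) = 0) {ε : R} (hε : 0 < ε) :
    ∃ m, ∀ n, m ≤ n → nm (star (e2 n) * x * e1 n) ≤ ε := by
  obtain ⟨mk, hm, hP⟩ := hP
  by_contra hc
  push Not at hc
  obtain ⟨q, hq, hq'⟩ := exists_intl_choiceT (N := N) (R := fun (j : NN N) (p : NN N × H) =>
    j ≤ p.1 ∧ nm p.2 ≤ 1 ∧ ε < nm ((star (e2 p.1) * x * e1 p.1) p.2)) (by fun_prop) fun j => by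
      obtain ⟨n, h1, h2⟩ := hc j
      obtain ⟨u, h3, h4⟩ := Op.exists_lt_apply _ h2
      exact ⟨(n, u), h1, h3, h4⟩
  have ker : ∀ (k : Op N K H) (e : NN N → Op N K H) (y : NN N → H) (C : R), DefF N e → DefF N y →
      (∀ n, nm (e n) ≤ 1) → (∀ j, nm (y j) ≤ C) →
      (∀ ε : R, 0 < ε → ∃ m, ∀ n, m ≤ n → nm (k * e n) ≤ ε) →
      (∀ j, nm (e (q j).1 (y j)) ≤ C) ∧ P k (mk fun j => e (q j).1 (y j)) = 0 := by
    intro k e y C de dy be bC ne
    have b : ∀ j, nm (e (q j).1 (y j)) ≤ C := fun j =>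
      (Op.le_of_opNorm_le (be _) _).trans ((one_mul _).trans_le (bC j))
    refine ⟨b, ?_⟩
    have hC : 0 ≤ C := (nm_nonneg _).trans (bC 0)
    rw [hP k _ (by fun_prop) ⟨C, b⟩]
    refine hm.eq_zero (by fun_prop) (op_bdd k ⟨C, b⟩) fun η hη => ?_
    obtain ⟨m, hm⟩ := ne (η / (C + 1)) (by positivity)
    refine ⟨m, fun j hj => (Op.le_of_opNorm_le (hm _ (hj.trans (hq' j).1)) (y j)).trans ?_⟩
    refine (mul_le_mul_of_nonneg_left (bC j) (by positivity)).trans ?_
    rw [div_mul_eq_mul_div, div_le_iff₀ (by positivity)]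
    nlinarith
  obtain ⟨bz, kz⟩ := ker k1 e1 (fun j => (q j).2) 1 d1 (by fun_prop) b1 (fun j => (hq' j).2.1) n1
  have bv : ∀ j, nm ((star (e2 (q j).1) * x * e1 (q j).1) (q j).2) ≤ nm x := fun j => by
    have a1 := Op.le_of_opNorm_le ((Op.nm_star _).trans_le (b2 (q j).1)) (x (e1 (q j).1 (q j).2))
    have a2 := x.le_nm_of_le_one (bz j)
    rw [one_mul] at a1
    exact a1.trans a2
  obtain ⟨bw, kw⟩ := ker k2 e2 (fun j => (star (e2 (q j).1) * x * e1 (q j).1) (q j).2) (nm x) d2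
    (by fun_prop) b2 bv n2
  have h1 := h _ _ kz kw
  rw [hP x _ (by fun_prop) ⟨1, bz⟩] at h1
  refine hm.ip_ne (by fun_prop) (by fun_prop) ⟨_, bw⟩ (op_bdd x ⟨1, bz⟩) (pow_pos hε 2)
    (D := nm x ^ 2) (fun j => ⟨_, pow_le_pow_left₀ hε.le (hq' j).2.2.le 2,
      pow_le_pow_left₀ (nm_nonneg _) (bv j) 2, ?_⟩) h1
  rw [← ip_star_right, ← ip_self]
  rfl

/-- (L2) for any family of self-adjoint cut-offs -/
theorem IsUltraRep.ineq (hP : IsUltraRep P) {k1 k2 x : Op N K H} {e1 e2 : NN N → Op N K H}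
    (d1 : DefF N e1) (d2 : DefF N e2) (b1 : ∀ n, nm (e1 n) ≤ 1) (b2 : ∀ n, nm (e2 n) ≤ 1)
    (s2 : ∀ n, star (e2 n) = e2 n)
    (n1 : ∀ ε : R, 0 < ε → ∃ m, ∀ n, m ≤ n → nm (k1 * e1 n) ≤ ε)
    (n2 : ∀ ε : R, 0 < ε → ∃ m, ∀ n, m ≤ n → nm (k2 * e2 n) ≤ ε)
    (h : ∀ z1 z2 : L, P k1 z1 = 0 → P k2 z2 = 0 → ip z2 (P x z1) = 0) {ε : R} (hε : 0 < ε) :
    ∃ m, ∀ n, m ≤ n → nm (e2 n * x * e1 n) ≤ ε := by
  simpa only [s2] using hP.test d1 d2 b1 b2 n1 n2 h hε

/-- (L1) for any family of self-adjoint cut-offs -/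
theorem IsUltraRep.det (hP : IsUltraRep P) {k x : Op N K H} {c : K} {e : NN N → Op N K H}
    (hc : ∀ z, P (x - c • 1) z = P x z - c • z) (d : DefF N e) (b : ∀ n, nm (e n) ≤ 1)
    (s : ∀ n, star (e n) = e n) (n1 : ∀ ε : R, 0 < ε → ∃ m, ∀ n, m ≤ n → nm (k * e n) ≤ ε)
    (h : ∀ z w : L, P k z = 0 → P k w = 0 → ip w (P x z) = c * ip w z) {ε : R} (hε : 0 < ε) :
    ∃ m, ∀ n, m ≤ n → nm (e n * x * e n - c • (e n * e n)) ≤ ε := by
  have := hP.ineq (x := x - c • 1) d d b b s n1 n1 (fun z w hz hw => by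
    rw [hc, ip_sub_right, ip_smul_right, h z w hz hw, sub_self]) hε
  simpa only [mul_sub, sub_mul, mul_smul_comm, smul_mul_assoc, mul_one] using this

/-- Approximate kernel vectors give kernel vectors. -/
theorem IsUltraRep.exists_ker (hP : IsUltraRep P) {k : Op N K H}
    (h : ∀ ε : R, 0 < ε → ∃ x : H, x ≠ 0 ∧ nm (k x) ≤ ε * nm x) :
    ∃ z : L, nm z = 1 ∧ P k z = 0 := by
  obtain ⟨mk, hm, hP⟩ := hP
  obtain ⟨y, hy, hy'⟩ := exists_intl_choiceT (N := N)
    (R := fun (n : NN N) (y : H) => nm y = 1 ∧ nm (k y) ≤ hp R n) (by fun_prop) fun n => by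
      obtain ⟨x, h1, h2⟩ := h _ (hp_pos n)
      have h3 := nm_pos_iff.2 h1
      refine ⟨_, nm_normalize (K := K) h1, ?_⟩
      rwa [map_smul, nm_ofR_smul_of_nonneg (inv_nonneg.2 h3.le), inv_mul_le_iff₀ h3, mul_comm]
  have b : ∃ C : R, ∀ n, nm (y n) ≤ C := ⟨1, fun n => (hy' n).1.le⟩
  refine ⟨mk y, hm.nm_eq_one (DefF.ofIntl y) fun n => (hy' n).1, ?_⟩
  rw [hP k y (DefF.ofIntl y) b]
  refine hm.eq_zero (by fun_prop) (op_bdd k b) fun ε hε => ?_
  exact (exists_hp_lt N hε).imp fun m hm n hn => (hy' n).2.trans (hm n hn).le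

/-- constant sequences -/
theorem IsUltraRep.exists_const (hP : IsUltraRep P) : ∃ j : H → L,
    (∀ x y : H, ip (j x) (j y) = ip x y) ∧ ∀ (T : Op N K H) (x : H), P T (j x) = j (T x) := by
  obtain ⟨mk, hm, hP⟩ := hP
  exact ⟨fun x => mk fun _ => x, fun x y => hm.ip_eq (by fun_prop) (by fun_prop)
    ⟨_, fun _ => le_rfl⟩ ⟨_, fun _ => le_rfl⟩ fun _ => rfl,
    fun T x => hP T _ (by fun_prop) ⟨_, fun _ => le_rfl⟩⟩

end Test

theorem sip_ip : SIP (ip : H → H → K) nm :=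
  ⟨ip_add_right, ip_smul_right, fun x y => (CX.star_eq _).symm.trans (star_ip x y), nm_nonneg,
    fun x => (re_ip_self x).symm⟩

variable (N K H) in
/-- the bounded sequences with the limit of the inner products -/
noncomputable def upre : PreH N K (BS N K H) :=
  BS.pre (exists_kLim (N := N) (K := K)).choose_spec sip_ip HS.defIp

variable (N K H) in
/-- the space of the representation -/
abbrev UP : Type _ := Cm (upre N K H)

/-- the action on sequences -/
def uact (T : Op N K H) : BS N K H →ₗ[K] BS N K H := BS.map T.1 T.defF T.bdd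

@[simp] theorem val_uact (T : Op N K H) (x : BS N K H) (n : NN N) :
    (uact T x).val n = T (x.val n) := rfl

@[fun_prop] theorem DefF.uact {f : α → Op N K H} {g : α → BS N K H} (hf : DefF N f)
    (hg : DefF N g) : DefF N (fun a => uact (f a) (g a)) :=
  BS.defF_of (by simp only [val_uact]; fun_prop)

theorem uadj (T : Op N K H) :
    Adj (upre N K H) (upre N K H) (uact T) (uact (star T)) (nm T) where
  defF := by fun_prop
  adj w x := by simp only [upre, BS.pre_ip, val_uact, ip_star_left]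
  nonneg := T.opNorm_nonneg
  bd w := BS.s_le _ _ _ T.opNorm_nonneg fun n => Op.le_of_opNorm_le (Op.nm_star T).le _

theorem ip_ulift (T : Op N K H) (g f : UP N K H) :
    ip (Cm.lift (uadj (star T)) g) f = ip g (Cm.lift (uadj T) f) := by
  have b : Adj (upre N K H) (upre N K H) (uact (star T)) (uact T) (nm (star T)) := by
    simpa only [star_star] using uadj (star T)
  rw [ip_lift (uadj T) b]
  congr 1
  exact Cm.ext fun w => by rw [Cm.ev_lift, Cm.ev_lift, star_star]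

theorem exists_urep (T : Op N K H) :
    ∃ u : Op N K (UP N K H), ∀ f, u f = Cm.lift (uadj T) f :=
  exists_op _ _ (Cm.defF_lift _) (Cm.defF_lift _) (ip_ulift T) _ (Cm.nm_lift_le _)

/-- the representation -/
noncomputable def urep (T : Op N K H) : Op N K (UP N K H) := (exists_urep T).choose

theorem urep_apply (T : Op N K H) (f : UP N K H) : urep T f = Cm.lift (uadj T) f :=
  (exists_urep T).choose_spec f

theorem ev_urep (T : Op N K H) (f : UP N K H) (w : BS N K H) :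
    (urep T f).ev w = f.ev (uact (star T) w) := by rw [urep_apply, Cm.ev_lift]

theorem defF_urep : DefF N (urep : Op N K H → Op N K (UP N K H)) :=
  defF_op (Cm.defF_cm (by simp only [ev_urep]; fun_prop))

theorem urep_one : urep (1 : Op N K H) = 1 :=
  Op.ext fun f => Cm.ext fun w => by rw [ev_urep, star_one]; rfl

theorem urep_mul (S T : Op N K H) : urep (S * T) = urep S * urep T :=
  Op.ext fun f => Cm.ext fun w => by rw [Op.mul_apply, ev_urep, ev_urep, ev_urep, star_mul]; rfl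

theorem urep_add (S T : Op N K H) : urep (S + T) = urep S + urep T :=
  Op.ext fun f => Cm.ext fun w => by
    rw [Op.add_apply, Cm.ev_add, ev_urep, ev_urep, ev_urep, star_add, ← Cm.ev_add_arg]; rfl

theorem urep_smul (c : K) (T : Op N K H) : urep (c • T) = c • urep T :=
  Op.ext fun f => Cm.ext fun w => by
    have e : uact (star c • star T) w = star c • uact (star T) w := rfl
    rw [Op.smul_apply, Cm.ev_smul, ev_urep, ev_urep, star_smul, e, Cm.ev_smul_arg, ← CX.star_eq,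
      star_star]

theorem urep_star (T : Op N K H) : urep (star T) = star (urep T) :=
  eq_star fun g f => by rw [urep_apply, urep_apply, ip_ulift]

theorem nm_urep_apply (T : Op N K H) (f : UP N K H) : nm (urep T f) ≤ nm T * nm f := by
  rw [urep_apply]; exact Cm.nm_lift_le _ f

theorem nm_urep_le (T : Op N K H) : nm (urep T) ≤ nm T :=
  Op.opNorm_le T.opNorm_nonneg (nm_urep_apply T)

theorem isUltraRep_urep : IsUltraRep (urep : Op N K H → Op N K (UP N K H)) := by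
  classical
  refine ⟨fun x => if h : Intl N x ∧ ∃ C : R, ∀ n, nm (x n) ≤ C then
    Cm.io _ (BS.mk x h.1 h.2) else 0, fun x y hx hy bx by' c r hr => ?_, fun T x hx bx => ?_⟩
  · beta_reduce
    rw [dif_pos ⟨hx.toIntl, bx⟩, dif_pos ⟨hy.toIntl, by'⟩, ip_io]
    exact (exists_kLim (N := N) (K := K)).choose_spec.near (u := fun n => ip (x n) (y n))
      (by fun_prop) (sip_ip.bdd_ip bx by') hr
  · beta_reduce
    rw [dif_pos ⟨hx.toIntl, bx⟩, dif_pos ⟨DefF.toIntl (by fun_prop), op_bdd T bx⟩, urep_apply,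
      Cm.lift_io]
    rfl

end Vale.Agent.P070Z
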