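import Vale.Agent.P070ZU.Ultra
import Vale.Agent.P070ZA.Defs

/-!
# The representation on classes of bounded sequences and the notions of the construction
-/

set_option linter.unusedSectionVars false

namespace Vale.Agent.P070Z

open Vale.Agent.P129B Vale.Agent.P070ZT

universe v

variable {N : Type v} [ZM N] {R K : Type*} [Nm K R] [Field R]
  [LinearOrder R] [IsStrictOrderedRing R] [Field K] [Algebra R K] [KA R K] [StarRing K] [CX R K]
  [Coded N R] [RF N R] [Coded N K] [KF N R K]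
  {H : Type*} [AddCommGroup H] [Module K H] [Nm H R] [Ip H K] [IA R K H] [Coded N H] [HS N R K H]
  {L : Type*} [AddCommGroup L] [Module K L] [Nm L R] [Ip L K] [IA R K L] [Coded N L] [HS N R K L]

include R K

theorem urp_urep : URp Set.univ (urep : Op N K H → Op N K (UP N K H)) :=
  ⟨⟨defF_urep, fun a _ b _ => urep_add a b, fun c a _ => urep_smul c a,
    fun a _ b _ => urep_mul a b, fun a _ => urep_star a⟩, urep_one, fun a _ => nm_urep_apply a⟩

theorem isUltra_iff {P : Op N K H → Op N K L} : IsUltra P ↔ IsUltraRep P :=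
  exists_congr fun _ => and_comm

variable {P : Op N K H → Op N K L}

/-- (L1) -/
theorem DetAt.small (hU : URp Set.univ P) (hP : IsUltraRep P) {k x : Op N K H} {c : K}
    (h : DetAt P k x c) {e : NN N → Op N K H} (d : DefF N e) (b : ∀ n, nm (e n) ≤ 1)
    (s : ∀ n, star (e n) = e n) (n1 : ∀ n, nm (k * e n) ≤ hp R n) {ε : R} (hε : 0 < ε) :
    ∃ m, ∀ n, m ≤ n → nm (e n * x * e n - c • (e n * e n)) ≤ ε :=
  hP.det (fun z => by
    rw [hU.toRp.sub cs_univ trivial trivial, hU.smul c 1 trivial, hU.one]; rfl) d b s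
    (fun _ hη => (exists_hp_lt N hη).imp fun _ hm n hn => (n1 n).trans (hm n hn).le) h hε

/-- (L2) -/
theorem IsUltraRep.small (hP : IsUltraRep P) {k1 k2 x : Op N K H}
    (h : ∀ z1 z2 : L, P k1 z1 = 0 → P k2 z2 = 0 → ip z2 (P x z1) = 0)
    {e1 e2 : NN N → Op N K H} (d1 : DefF N e1) (d2 : DefF N e2) (b1 : ∀ n, nm (e1 n) ≤ 1)
    (b2 : ∀ n, nm (e2 n) ≤ 1) (s2 : ∀ n, star (e2 n) = e2 n) (n1 : ∀ n, nm (k1 * e1 n) ≤ hp R n)
    (n2 : ∀ n, nm (k2 * e2 n) ≤ hp R n) {ε : R} (hε : 0 < ε) :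
    ∃ m, ∀ n, m ≤ n → nm (e2 n * x * e1 n) ≤ ε :=
  hP.ineq d1 d2 b1 b2 s2
    (fun _ hη => (exists_hp_lt N hη).imp fun _ hm n hn => (n1 n).trans (hm n hn).le)
    (fun _ hη => (exists_hp_lt N hη).imp fun _ hm n hn => (n2 n).trans (hm n hn).le) h hε

end Vale.Agent.P070Z
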