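import Vale.Agent.P129BA.KLim

/-!
# Bounded internal sequences in a normed space of a model; rules for generalised limits
-/

set_option linter.unusedSectionVars false

namespace Vale.Agent.P129B

universe v

variable {N : Type v} [ZM N] {R : Type*} [Field R] [LinearOrder R] [IsStrictOrderedRing R]
  [Coded N R] [RF N R] {K : Type*} [Field K] [Algebra R K] [Nm K R] [KA R K] [Coded N K]
  [KF N R K]

open KA

namespace KLim

variable {L : (NN N → K) → K}

theorem neg (h : KLim N L) {u : NN N → K} (hu : DefF N u) (b : ∃ C, ∀ n, nm (u n) ≤ C) :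
    L (fun n => -u n) = -L u := by
  simpa using h.mul (-1) u hu b

theorem sub (h : KLim N L) {u w : NN N → K} (hu : DefF N u) (hw : DefF N w)
    (a : ∃ C, ∀ n, nm (u n) ≤ C) (b : ∃ C, ∀ n, nm (w n) ≤ C) :
    L (fun n => u n - w n) = L u - L w := by
  simp only [sub_eq_add_neg]
  rw [h.add u (fun n => -w n) hu (by fun_prop) a (by simpa using b), h.neg hw b]

theorem ge (h : KLim N L) {u : NN N → K} (hu : DefF N u) (a : ∃ C, ∀ n, nm (u n) ≤ C) {b : R}
    (hb : ∃ m, ∀ n, m ≤ n → b ≤ re (u n)) : b ≤ re (L u) := by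
  have := h.le (fun n => -u n) (by fun_prop) (by simpa using a) (-b)
    (hb.imp fun m hm n hn => by simpa using hm n hn)
  rw [h.neg hu a] at this
  simpa using this

theorem const (h : KLim N L) (c : K) : L (fun _ => c) = c := by
  have h1 : nm (L fun _ => (1 : K)) ≤ 1 := h.nm_le (by fun_prop) fun _ => nm_one.le
  have h2 : 1 ≤ re (L fun _ => (1 : K)) :=
    h.ge (by fun_prop) ⟨1, fun _ => nm_one.le⟩ ⟨0, fun _ _ => re_one.ge⟩
  have h3 : L (fun _ => (1 : K)) = 1 := by
    rw [← ofR_re_of_le (h1.trans h2), le_antisymm ((re_le_nm _).trans h1) h2, map_one]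
  have h4 := h.mul c (fun _ => 1) (by fun_prop) ⟨1, fun _ => nm_one.le⟩
  simpa [h3] using h4

/-- The limit lies in every closed disc which contains almost all terms. -/
theorem near (h : KLim N L) {u : NN N → K} (hu : DefF N u) (a : ∃ C, ∀ n, nm (u n) ≤ C) {c : K}
    {r : R} (hr : ∃ m, ∀ n, m ≤ n → nm (u n - c) ≤ r) : nm (L u - c) ≤ r := by
  obtain ⟨C, hC⟩ := a
  have b : ∃ D, ∀ n, nm (u n - c) ≤ D :=
    ⟨C + nm c, fun n => (nm_sub_le _ _).trans (add_le_add (hC n) le_rfl)⟩
  have e : L (fun n => u n - c) = L u - c := by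
    rw [h.sub hu (by fun_prop) ⟨C, hC⟩ ⟨nm c, fun _ => le_rfl⟩, h.const]
  have k : ∀ n, nm (rot (L u - c) * (u n - c)) = nm (u n - c) := fun n => by
    rw [nm_mul, nm_rot, one_mul]
  have h2 := h.le (fun n => rot (L u - c) * (u n - c)) (by fun_prop) (by simpa only [k] using b) r
    (hr.imp fun m hm n hn => (re_le_nm _).trans ((k n).trans_le (hm n hn)))
  rwa [h.mul _ _ (by fun_prop) b, e, rot_mul, re_ofR] at h2

theorem re_zero (h : KLim N L) {u : NN N → K} (hu : DefF N u) (a : ∃ C, ∀ n, nm (u n) ≤ C)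
    (h0 : ∀ n, re (u n) = 0) : re (L u) = 0 :=
  le_antisymm (h.le u hu a 0 ⟨0, fun n _ => (h0 n).le⟩) (h.ge hu a ⟨0, fun n _ => (h0 n).ge⟩)

theorem map_conj (h : KLim N L) {u : NN N → K} (hu : DefF N u) (a : ∃ C, ∀ n, nm (u n) ≤ C) :
    L (fun n => conj (u n)) = conj (L u) := by
  have a' : ∃ C, ∀ n, nm (conj (u n)) ≤ C := by simpa only [nm_conj] using a
  obtain ⟨C, hC⟩ := a
  have b1 : ∃ D, ∀ n, nm (conj (u n) - u n) ≤ D := ⟨C + C, fun n =>
    (nm_sub_le _ _).trans (add_le_add ((nm_conj _).trans_le (hC n)) (hC n))⟩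
  have b2 : ∃ D, ∀ n, nm (conj (u n) + u n) ≤ D := ⟨C + C, fun n =>
    (nm_add_le _ _).trans (add_le_add ((nm_conj _).trans_le (hC n)) (hC n))⟩
  have h1 := h.re_zero (u := fun n => conj (u n) - u n) (by fun_prop) b1 fun n => by simp
  have h2 := h.re_zero (u := fun n => I * (conj (u n) + u n)) (by fun_prop)
    (b2.imp fun D hD n => by
      rw [nm_mul]; exact (mul_le_of_le_one_left (nm_nonneg _) nm_I_le).trans (hD n))
    fun n => by rw [re_I_mul]; simp
  rw [h.sub (by fun_prop) hu a' ⟨C, hC⟩, map_sub] at h1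
  rw [h.mul _ _ (by fun_prop) b2, h.add _ _ (by fun_prop) hu a' ⟨C, hC⟩, re_I_mul, map_add] at h2
  refine KA.ext ?_ ?_
  · rw [re_conj]; linarith
  · rw [im_conj]; linarith

end KLim

/-- the bounded internal sequences in `E` -/
def BS (N : Type v) [ZM N] (_K E : Type*) {R : Type*} [LE R] [Nm E R] [Coded N E] : Type _ :=
  {f : NN N → E // Intl N f ∧ ∃ c : R, ∀ n, nm (f n) ≤ c}

variable {E : Type*} [AddCommGroup E] [Module K E] [Nm E R] [NA R K E] [Coded N E] [NS N R K E]
  {α : Type*} [Coded N α]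

namespace BS

variable (N K E) in
/-- the bounded internal sequences as a submodule -/
def sub : Submodule K (NN N → E) where
  carrier := {f | Intl N f ∧ ∃ c : R, ∀ n, nm (f n) ≤ c}
  zero_mem' := ⟨intl_const (0 : E), 0, fun _ => nm_zero.le⟩
  add_mem' := by
    rintro f g ⟨hf, c, hc⟩ ⟨hg, d, hd⟩
    exact ⟨DefF.toIntl (f := fun n => f n + g n) (by fun_prop), c + d,
      fun n => (nm_add_le _ _).trans (add_le_add (hc n) (hd n))⟩
  smul_mem' := by
    rintro a f ⟨hf, c, hc⟩
    exact ⟨DefF.toIntl (f := fun n => a • f n) (by fun_prop), nm a * c,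
      fun n => (nm_smul _ _).trans_le (mul_le_mul_of_nonneg_left (hc n) (nm_nonneg a))⟩

instance : AddCommGroup (BS N K E) := inferInstanceAs (AddCommGroup (sub N K E))
instance : Module K (BS N K E) := inferInstanceAs (Module K (sub N K E))

/-- the underlying sequence -/
def val (x : BS N K E) : NN N → E := Subtype.val x

theorem ext {x y : BS N K E} (e : ∀ n, x.val n = y.val n) : x = y := Subtype.ext (funext e)

@[simp] theorem val_add (x y : BS N K E) (n : NN N) : (x + y).val n = x.val n + y.val n := rfl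
@[simp] theorem val_sub (x y : BS N K E) (n : NN N) : (x - y).val n = x.val n - y.val n := rfl
@[simp] theorem val_smul (c : K) (x : BS N K E) (n : NN N) : (c • x).val n = c • x.val n := rfl
@[simp] theorem val_zero (n : NN N) : (0 : BS N K E).val n = 0 := rfl

instance intl_val (x : BS N K E) : Intl N x.val := x.2.1

theorem bdd (x : BS N K E) : ∃ c : R, ∀ n, nm (x.val n) ≤ c := x.2.2

/-- a bounded sequence as a point -/
def mk (f : NN N → E) (hf : Intl N f) (hc : ∃ c : R, ∀ n, nm (f n) ≤ c) : BS N K E :=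
  Subtype.mk f ⟨hf, hc⟩

@[simp] theorem val_mk (f : NN N → E) (hf : Intl N f) (hc : ∃ c : R, ∀ n, nm (f n) ≤ c) :
    (mk f hf hc : BS N K E).val = f := rfl

noncomputable instance coded : Coded N (BS N K E) where
  Int _ := True
  code x := code N x.val
  inj _ _ e := Subtype.ext (code_inj (intl_val _) (intl_val _) e)
  dom := by
    have h1 : DefF N (fun f : NN N → E => ∃ c : R, ∀ n, nm (f n) ≤ c) := by fun_prop
    refine (defP_iff.1 h1).congr fun x => ⟨?_, ?_⟩
    · rintro ⟨f, hf, rfl, hc⟩; exact ⟨mk f hf hc, trivial, rfl⟩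
    · rintro ⟨x, -, rfl⟩; exact ⟨x.val, inferInstance, rfl, x.bdd⟩

instance tot : Tot N (BS N K E) where
  car := by
    have h1 : Intl N {f : NN N → E | Intl N f ∧ ∃ c : R, ∀ n, nm (f n) ≤ c} :=
      intl_setOf (by fun_prop)
    refine ⟨code N _, fun x => (mem_code_set h1).trans ⟨?_, ?_⟩⟩
    · rintro ⟨f, ⟨hf, hc⟩, rfl⟩; exact ⟨mk f hf hc, ⟨trivial⟩, rfl⟩
    · rintro ⟨x, -, rfl⟩; exact ⟨x.val, ⟨inferInstance, x.bdd⟩, rfl⟩
  all _ := ⟨trivial⟩

theorem defF_val : DefF N (fun x : BS N K E => x.val) :=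
  ⟨fun x _ => intl_val x, (DefF.id (N := N) (α := BS N K E)).2⟩

@[fun_prop] theorem defF_co {f : α → BS N K E} {g : α → NN N} (hf : DefF N f) (hg : DefF N g) :
    DefF N (fun a => (f a).val (g a)) := (defF_val.comp hf).ap hg

theorem defF_of {f : α → BS N K E} (H : DefF N (fun p : α × NN N => (f p.1).val p.2)) :
    DefF N f := ⟨fun _ _ => inferInstance, (DefF.lam (fun a n => (f a).val n) H).2⟩

instance : DefAdd N (BS N K E) := ⟨defF_of (by simp only [val_add]; fun_prop)⟩
instance : DefSMul N K (BS N K E) := ⟨defF_of (by simp only [val_smul]; fun_prop)⟩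

end BS

end Vale.Agent.P129B
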