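import Vale.Agent.P070ZA.Hs

/-!
# Classes of bounded sequences
-/

set_option linter.unusedSectionVars false

namespace Vale.Agent.P070Z

open Vale.Agent.P129B

universe v

variable {N : Type v} [ZM N] {R K : Type*} [Nm K R] [Field R] [LinearOrder R]
  [IsStrictOrderedRing R] [Field K] [Algebra R K] [KA R K] [StarRing K] [CX R K] [Coded N R]
  [RF N R] [Coded N K] [KF N R K]
  {H : Type*} [AddCommGroup H] [Module K H] [Nm H R] [Ip H K] [IA R K H] [Coded N H] [HS N R K H]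
  {L : Type*} [AddCommGroup L] [Module K L] [Nm L R] [Ip L K] [IA R K L]

/-- The inner product of `mk x` and `mk y` is a generalised limit of the inner products. -/
def UMk (mk : (NN N → H) → L) : Prop :=
  ∀ x y : NN N → H, DefF N x → DefF N y → (∃ C : R, ∀ n, nm (x n) ≤ C) →
    (∃ C : R, ∀ n, nm (y n) ≤ C) → ∀ (c : K) (r : R),
      (∃ m, ∀ n, m ≤ n → nm (ip (x n) (y n) - c) ≤ r) → nm (ip (mk x) (mk y) - c) ≤ r

include R K

variable {mk : (NN N → H) → L}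

theorem UMk.ip_eq (h : UMk mk) {x y : NN N → H} (hx : DefF N x) (hy : DefF N y)
    (bx : ∃ C : R, ∀ n, nm (x n) ≤ C) (by' : ∃ C : R, ∀ n, nm (y n) ≤ C) {c : K}
    (e : ∀ n, ip (x n) (y n) = c) : ip (mk x) (mk y) = c :=
  sub_eq_zero.1 (nm_le_zero_iff.1 (h x y hx hy bx by' c 0 ⟨0, fun n _ => by simp [e n]⟩))

theorem UMk.nm_le (h : UMk mk) {x : NN N → H} (hx : DefF N x) (bx : ∃ C : R, ∀ n, nm (x n) ≤ C)
    {r : R} (e : ∃ m, ∀ n, m ≤ n → nm (x n) ≤ r) : nm (mk x) ≤ r := by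
  obtain ⟨m, hm⟩ := e
  have h1 := h x x hx hx bx bx 0 (r ^ 2) ⟨m, fun n hn => by
    rw [sub_zero, nm_ip_self]; exact pow_le_pow_left₀ (nm_nonneg _) (hm n hn) 2⟩
  rw [sub_zero, nm_ip_self] at h1
  exact le_of_sq_le_sq h1 ((nm_nonneg _).trans (hm m le_rfl))

/-- The class of a null sequence vanishes. -/
theorem UMk.eq_zero (h : UMk mk) {x : NN N → H} (hx : DefF N x)
    (bx : ∃ C : R, ∀ n, nm (x n) ≤ C) (e : ∀ ε : R, 0 < ε → ∃ m, ∀ n, m ≤ n → nm (x n) ≤ ε) :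
    mk x = 0 :=
  eq_of_forall_nm_sub_le fun ε hε => by rw [sub_zero]; exact h.nm_le hx bx (e ε hε)

theorem UMk.nm_eq_one (h : UMk mk) {x : NN N → H} (hx : DefF N x) (e : ∀ n, nm (x n) = 1) :
    nm (mk x) = 1 := by
  have b : ∃ C : R, ∀ n, nm (x n) ≤ C := ⟨1, fun n => (e n).le⟩
  have h1 := nm_ip_self (mk x)
  rw [h.ip_eq hx hx b b fun n => ip_self_one (e n), KA.nm_one] at h1
  exact (sq_eq_sq₀ (nm_nonneg _) zero_le_one).1 (by rw [← h1, one_pow])

/-- If the inner products are real and at least `ε > 0`, the classes are not orthogonal. -/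
theorem UMk.ip_ne (h : UMk mk) {x y : NN N → H} (hx : DefF N x) (hy : DefF N y)
    (bx : ∃ C : R, ∀ n, nm (x n) ≤ C) (by' : ∃ C : R, ∀ n, nm (y n) ≤ C) {ε D : R} (hε : 0 < ε)
    (e : ∀ n, ∃ t : R, ε ≤ t ∧ t ≤ D ∧ ip (x n) (y n) = algebraMap R K t) :
    ip (mk x) (mk y) ≠ 0 := fun h0 => by
  have h1 := h x y hx hy bx by' (algebraMap R K D) (D - ε) ⟨0, fun n _ => by
    obtain ⟨t, h1, h2, h3⟩ := e n
    rw [h3, ← map_sub, KA.nm_ofR, abs_sub_comm, abs_of_nonneg (sub_nonneg.2 h2)]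
    linarith⟩
  rw [h0, zero_sub, nm_neg, KA.nm_ofR] at h1
  linarith [le_abs_self D]

end Vale.Agent.P070Z
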